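import Vale.Agent.P267.H994.Fin
import Vale.Agent.P267.H692.PDIn
import Vale.Agent.P267.H995.Poin
import Vale.Agent.P267.H283.Canon

/-!
# P267, package UNI-FINAL (helper994): existence of the input

* `exists_sqPart_cover` : a smooth partition of unity by squares subordinate to a finite open cover.
* `exists_nerveIn` : `NerveIn Y` for every closed surface.
* `unimod` : `BlockC.UnimodThm'`, integral Poincare duality.
-/

set_option linter.unusedSectionVars false

open scoped Manifold ContDiff ComplexConjugate Matrix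
open Set Filter Topology TopologicalSpace

noncomputable section

namespace Vale.Agent.P267.H994

open Vale.Agent.P267.FL Vale.Agent.P267.BlockC Vale.Agent.P267.RR
open Vale.Agent.P267.H533 (AX TI RSm exists_bump_at)
open Vale.Agent.P267.H995 (SqPart IsCoc Exact2)
open Vale.Agent.P267.H692 (cov eucC2 pdIn_sqSeq exists_sqSeq exists_goodCover
  metrizable_of_compact partOf)

section sq

variable {X : Type} [TopologicalSpace X] [T2Space X] [CompactSpace X] [ChartedSpace C2 X]
  [IsManifold 𝓘(ℂ, C2) ω X]

/-- **a smooth partition of unity by squares subordinate to a finite open cover** -/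
theorem exists_sqPart_cover {n : ℕ} (U : Fin n → Set X) (hU : ∀ i, IsOpen (U i))
    (hcov : ∀ x, ∃ i, x ∈ U i) : ∃ S : SqPart X (Fin n), S.U = U := by
  classical
  choose i hi using hcov
  have hb : ∀ x : X, ∃ χ : X → ℝ, RSm χ ∧ HasCompactSupport χ ∧
      tsupport χ ⊆ (chartAt C2 x).source ∩ U (i x) ∧
      (∀ y, 0 ≤ χ y ∧ χ y ≤ 1) ∧ ∀ᶠ y in 𝓝 x, χ y = 1 := fun x =>
    exists_bump_at (hU (i x)) (hi x)
  choose χ h1 h2 h3 h4 h5 using hb
  obtain ⟨t, -, ht⟩ := isCompact_univ.elim_nhds_subcover (fun x : X => {y | χ x y = 1})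
    (fun x _ => h5 x)
  -- the sum of the bump functions belonging to the index `j`
  set f : Fin n → X → ℝ := fun j y => ∑ x ∈ t with i x = j, χ x y with hf
  have hfs : ∀ j, RSm (f j) := fun j => RSm.sum _ fun x _ => h1 x
  have hf0 : ∀ j y, 0 ≤ f j y := fun j y => Finset.sum_nonneg fun x _ => (h4 x y).1
  have hf1 : ∀ y, ∃ j, 1 ≤ f j y := by
    intro y
    obtain ⟨x, hx, hxy⟩ := mem_iUnion₂.1 (ht (mem_univ y))
    refine ⟨i x, ?_⟩
    have h := Finset.single_le_sum (f := fun x => χ x y) (s := t.filter fun x' => i x' = i x)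
      (fun x' _ => (h4 x' y).1) (Finset.mem_filter.2 ⟨hx, rfl⟩)
    have hxy' : χ x y = 1 := hxy
    simp only [hxy'] at h
    exact h
  have hft : ∀ j, tsupport (f j) ⊆ U j := by
    intro j
    have h6 : Function.support (f j) ⊆ ⋃ x ∈ t.filter (fun x => i x = j), tsupport (χ x) := by
      intro y hy
      by_contra hcon
      simp only [mem_iUnion, not_exists] at hcon
      refine hy (Finset.sum_eq_zero fun x hx => ?_)
      exact image_eq_zero_of_notMem_tsupport (hcon x hx)
    have h7 : IsClosed (⋃ x ∈ t.filter (fun x => i x = j), tsupport (χ x)) :=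
      Set.Finite.isClosed_biUnion (Finset.finite_toSet _) fun x _ => isClosed_tsupport _
    refine (closure_minimal h6 h7).trans ?_
    refine iUnion₂_subset fun x hx => ?_
    rw [← (Finset.mem_filter.1 hx).2]
    exact (h3 x).trans inter_subset_right
  set q : X → ℝ := fun x => ∑ j, f j x * f j x with hq
  have hqs : RSm q := RSm.sum _ fun j _ => (hfs j).mul (hfs j)
  have hqpos : ∀ x, 0 < q x := by
    intro x
    obtain ⟨j, hj⟩ := hf1 x
    refine lt_of_lt_of_le one_pos ?_
    have h := Finset.single_le_sum (f := fun j => f j x * f j x)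
      (fun b _ => mul_self_nonneg (f b x)) (Finset.mem_univ j)
    refine le_trans ?_ h
    nlinarith
  set w : X → ℝ := fun x => (Real.sqrt (q x))⁻¹ with hw
  have hws : RSm w := fun e he =>
    H692.contDiffOn_inv_sqrt.comp (hqs e he) fun z _ => hqpos (e.symm z)
  refine ⟨⟨U, hU, fun j x => f j x * w x, fun j => ((hfs j).mul hws).reg, fun j =>
    (tsupport_mul_subset_left).trans (hft j), fun x => ?_⟩, rfl⟩
  have e1 : ∀ j, (f j x * w x) ^ 2 = (f j x * f j x) * w x ^ 2 := fun j => by ring
  simp only [e1]
  rw [← Finset.sum_mul]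
  have e2 : w x ^ 2 = (q x)⁻¹ := by
    rw [hw]
    simp only
    rw [inv_pow, Real.sq_sqrt (hqpos x).le]
  rw [e2]
  exact mul_inv_cancel₀ (hqpos x).ne'

end sq

/-- **the nerve data of a closed surface** -/
theorem exists_nerveIn (X : Type) [TopologicalSpace X] [T2Space X] [CompactSpace X]
    [ChartedSpace C2 X] [IsManifold 𝓘(ℂ, C2) ω X] :
    Nonempty (Vale.Agent.P290.H445.NerveIn X) := by
  have H : FormFacts X := formFacts (curvThm X)
  let _ := metrizable_of_compact X
  let _ : MetricSpace X := TopologicalSpace.metrizableSpaceMetric X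
  obtain ⟨G, -⟩ := exists_goodCover (X := X) (fun _ : Unit => (univ : Set X))
    (fun _ => isOpen_univ) (fun x => ⟨(), mem_univ x⟩)
  obtain ⟨N, S', v, h⟩ := exists_sqSeq (X := X)
  obtain ⟨S, hS⟩ := exists_sqPart_cover G.U G.isOpen_U G.exists_mem_U
  obtain ⟨c, hc⟩ := exists_goodIndex (X := X) (fun i => (cov G i : Set X))
    (fun i => (cov G i).isOpen) (H692.cov_cover G)
  exact ⟨NIn.nerveIn (Y := X) (ι := Fin G.n)
    { S := S
      U := cov G
      hU := fun i => by rw [hS]; rfl
      c := c
      hc := hc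
      N := N
      P := fun k => partOf (S' k) (v k)
      pd := pdIn_sqSeq G h
      conv := fun M => H995.exists_zig M.L (H995.goodFam G)
      span := fun F hF hF' => H995.exists_zig_closed (H995.goodFam G) hF hF' } H⟩

/-- **Integral Poincare duality for the Chern classes of smooth line bundles on a closed surface
with integral intersection form.** -/
theorem unimod_of_int' (X : Type) [TopologicalSpace X] [T2Space X] [CompactSpace X]
    [ChartedSpace C2 X] [IsManifold 𝓘(ℂ, C2) ω X]
    (int : ∀ L L' : ALB X, ∃ k : ℤ, isec L.L L'.L = k) : ∃ N, Unimod X N ∧ BettiSucc X 1 N := by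
  obtain ⟨D⟩ := exists_nerveIn X
  have H : FormFacts X := formFacts (curvThm X)
  obtain ⟨N, hN⟩ := D.unimod H int
  exact ⟨N, hN, betti_of_unimod H hN⟩

/-- **`BlockC.UnimodThm'`** -/
theorem unimod : UnimodThm' :=
  unimodThm_of curvThm fun Y _ _ _ _ _ _ => exists_nerveIn Y

end Vale.Agent.P267.H994
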