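import Vale.Agent.P267.H994.WF
import Vale.Agent.P267.H995.Pz
import Vale.Agent.P267.H994.PD
import Vale.Agent.P267.H283.Facts2
import Vale.Agent.P290.H445.UniK

/-!
# P267, package UNI-FINAL (helper994): the lattice of Chern classes of a closed surface

* `NIn` : a good cover with a partition by squares, the duality input `PDIn`, and zigzags for
  curvatures of line bundles and for closed forms.
* `NIn.nerveIn` : the resulting `P290.H445.NerveIn Y`.
-/

set_option linter.unusedSectionVars false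

open scoped Manifold ContDiff ComplexConjugate Matrix
open Set Filter Topology TopologicalSpace

noncomputable section

namespace Vale.Agent.P267.H994

open Vale.Agent.P267.FL Vale.Agent.P267.H175 Vale.Agent.P267.BlockC Vale.Agent.P267.RR
open Vale.Agent.P267.H533 (AX TI WP ψC WF prodW prodW_eq_intX)
open Vale.Agent.P267.H995 (SqPart IsCoc Exact2)

/-! ### cochains -/

section cochain

variable {Y : Type} [TopologicalSpace Y] {ι : Type} (U : ι → Opens Y)

/-- extension by zero as a linear map -/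
def extL : (N2 U → ℂ) →ₗ[ℂ] (ι → ι → ι → ℂ) where
  toFun := extA U
  map_add' m n := by
    funext i j k
    simp only [Pi.add_apply]
    by_cases h : U i ⊓ U j ⊓ U k = ⊥
    · simp only [extA_of_eq _ h, add_zero]
    · simp only [extA_of_ne _ h, Pi.add_apply]
  map_smul' c n := by
    funext i j k
    simp only [Pi.smul_apply, RingHom.id_apply]
    by_cases h : U i ⊓ U j ⊓ U k = ⊥
    · simp only [extA_of_eq _ h, smul_zero]
    · simp only [extA_of_ne _ h, Pi.smul_apply]

variable {U}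

theorem extL_apply (n : N2 U → ℂ) : extL U n = extA U n := rfl

theorem extA_cast {A : Type*} [AddCommGroup A] (g : ℤ →+ A) (n : N2 U → ℤ) (i j k : ι) :
    extA U (fun p => g (n p)) i j k = g (extA U n i j k) := by
  by_cases h : U i ⊓ U j ⊓ U k = ⊥
  · rw [extA_of_eq _ h, extA_of_eq _ h, map_zero]
  · rw [extA_of_ne _ h, extA_of_ne _ h]

theorem isCoc_extA {n : N2 U → ℤ} (hn : n ∈ intKer (dlt2 U)) :
    IsCoc (fun i => (U i : Set Y)) (extA U n) := by
  intro a b c d x ha hb hc hd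
  exact extA_nz n hn a b c d ⟨x, ⟨⟨ha, hb⟩, hc⟩, hd⟩

/-- complex cocycles are spanned by the integral ones -/
theorem exists_int_comb [Finite (N2 U)] {r : N2 U → ℂ} (hr : (dlt2 U).app r = 0) :
    ∃ (k : ℕ) (t : Fin k → ℂ) (n : Fin k → intKer (dlt2 U)),
      r = ∑ i, t i • fun p => ((n i).1 p : ℂ) := by
  classical
  have hre : (dlt2 U).app (fun p => (r p).re) = 0 := by
    have := (dlt2 U).app_comp Complex.reAddGroupHom r
    funext x
    have h1 := congrFun this x
    rw [hr] at h1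
    exact h1
  have him : (dlt2 U).app (fun p => (r p).im) = 0 := by
    have := (dlt2 U).app_comp Complex.imAddGroupHom r
    funext x
    have h1 := congrFun this x
    rw [hr] at h1
    exact h1
  have key : ∀ x : N2 U → ℝ, (dlt2 U).app x = 0 → (fun p => (x p : ℂ)) ∈ Submodule.span ℂ
      (Set.range fun n : intKer (dlt2 U) => fun p => (n.1 p : ℂ)) := by
    intro x hx
    have h1 := mem_span_int (dlt2 U) x hx
    clear hx
    induction h1 using Submodule.span_induction with
    | mem y hy =>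
      obtain ⟨z, hz, rfl⟩ := hy
      refine Submodule.subset_span ⟨⟨z, hz⟩, ?_⟩
      funext p
      simp
    | zero =>
      have : (fun p => (((0 : N2 U → ℝ) p : ℝ) : ℂ)) = 0 := by funext p; simp
      rw [this]
      exact Submodule.zero_mem _
    | add y z _ _ h2 h3 =>
      have : (fun p => (((y + z) p : ℝ) : ℂ)) = (fun p => (y p : ℂ)) + fun p => (z p : ℂ) := by
        funext p; simp
      rw [this]
      exact Submodule.add_mem _ h2 h3
    | smul c y _ h2 =>
      have : (fun p => (((c • y) p : ℝ) : ℂ)) = (c : ℂ) • fun p => (y p : ℂ) := by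
        funext p; simp
      rw [this]
      exact Submodule.smul_mem _ _ h2
  have hmem : r ∈ Submodule.span ℂ
      (Set.range fun n : intKer (dlt2 U) => fun p => (n.1 p : ℂ)) := by
    have h1 : r = (fun p => ((r p).re : ℂ)) + Complex.I • fun p => ((r p).im : ℂ) := by
      funext p
      simp only [Pi.add_apply, Pi.smul_apply, smul_eq_mul]
      rw [mul_comm]
      exact (Complex.re_add_im (r p)).symm
    rw [h1]
    exact Submodule.add_mem _ (key _ hre) (Submodule.smul_mem _ _ (key _ him))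
  rw [Submodule.mem_span_set'] at hmem
  obtain ⟨k, t, g, hg⟩ := hmem
  choose n hn using fun i => (g i).2
  refine ⟨k, t, n, ?_⟩
  rw [← hg]
  exact Finset.sum_congr rfl fun i _ => by rw [← hn i]

end cochain

/-! ### the input -/

/-- The input: a good cover with a partition by squares, the duality input, and zigzags. -/
structure NIn (Y : Type) [PseudoMetricSpace Y] [T2Space Y] [ChartedSpace C2 Y]
    [IsManifold 𝓘(ℂ, C2) ω Y] (ι : Type) [Fintype ι] [DecidableEq ι] where
  S : SqPart Y ι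
  U : ι → Opens Y
  hU : ∀ i, S.U i = U i
  c : Y → ι
  hc : GoodIndex (fun i => (U i : Set Y)) c
  N : ℕ → ℕ
  P : ∀ k, H533.Part (AX Y) (Fin (N k))
  pd : PDIn (TI Y) P U
  /-- every line bundle comes from a cocycle -/
  conv : ∀ M : ALB Y, ∃ (Z : H995.Zig (fun i => (U i : Set Y)) M.L.curv) (n : ι → ι → ι → ℤ),
    IsCoc (fun i => (U i : Set Y)) n ∧ Z.r = fun a b c => 2 * Real.pi * Complex.I * n a b c
  /-- the Poincare lemma -/
  span : ∀ F : TwoF Y, F.Smooth → F.Closed → Nonempty (H995.Zig (fun i => (U i : Set Y)) F)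

theorem exactTwo_iff {X : Type*} [TopologicalSpace X] [ChartedSpace C2 X] {F : TwoF X} :
    ExactTwo F ↔ Exact2 F := by
  constructor
  · rintro ⟨A, hA, rfl⟩
    exact ⟨A, hA, rfl⟩
  · rintro ⟨A, hA, rfl⟩
    exact ⟨A, hA, rfl⟩

namespace NIn

variable {Y : Type} [PseudoMetricSpace Y] [T2Space Y] [ChartedSpace C2 Y]
    [IsManifold 𝓘(ℂ, C2) ω Y] {ι : Type} [Fintype ι] [DecidableEq ι] (D : NIn Y ι)

theorem hU' : D.S.U = fun i => (D.U i : Set Y) := funext D.hU

theorem isCoc (n : intKer (dlt2 D.U)) : IsCoc D.S.U (extA D.U n.1) := by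
  rw [D.hU']
  exact isCoc_extA n.2

/-- the line bundle of an integral cocycle -/
def L (n : intKer (dlt2 D.U)) : ALB Y := ⟨ι, D.S.lb (extA D.U n.1) (D.isCoc n)⟩

/-- `W` as a linear map -/
def WL (S : H995.Part Y ι) : (ι → ι → ι → ℂ) →ₗ[ℂ] TwoF Y where
  toFun := S.W
  map_add' := S.W_add
  map_smul' := S.W_smul

/-- the form of a cochain -/
def w : (N2 D.U → ℂ) →ₗ[ℂ] TwoF Y := (WL D.S.toPart).comp (extL D.U)

theorem w_apply (n : N2 D.U → ℂ) : D.w n = D.S.toPart.W (extA D.U n) := rfl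

/-- the constant `-2πi` -/
def tp : ℂ := -(2 * Real.pi * Complex.I)

theorem tp_ne : tp ≠ 0 := by
  unfold tp
  refine neg_ne_zero.2 ?_
  simp [Real.pi_ne_zero]

theorem w_cast (n : N2 D.U → ℤ) : D.w (fun p => (n p : ℂ)) =
    D.S.toPart.W fun a b c => ((extA D.U n a b c : ℤ) : ℂ) := by
  rw [w_apply]
  congr 1
  funext a b c
  exact extA_cast (Int.castAddHom ℂ) n a b c

theorem curv_L (n : intKer (dlt2 D.U)) : (D.L n).L.curv = tp • D.w fun p => (n.1 p : ℂ) := by
  rw [w_cast]
  exact SqPart.curv_lb (D.isCoc n)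

theorem exactTwo_smul_iff (H : FormFacts Y) {c : ℂ} (hc : c ≠ 0) {F : TwoF Y} :
    ExactTwo (c • F) ↔ ExactTwo F := by
  refine ⟨fun h => ?_, H.exact_smul c F⟩
  have := H.exact_smul c⁻¹ _ h
  rwa [smul_smul, inv_mul_cancel₀ hc, one_smul] at this

/-- smoothness and closedness of the form of an integral cocycle -/
theorem w_smooth (H : FormFacts Y) (n : intKer (dlt2 D.U)) :
    (D.w fun p => (n.1 p : ℂ)).Smooth := by
  have h := H.smooth_smul tp⁻¹ _ (H.curv_smooth (D.L n))
  rwa [curv_L, smul_smul, inv_mul_cancel₀ tp_ne, one_smul] at h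

theorem w_closed (H : FormFacts Y) (n : intKer (dlt2 D.U)) :
    (D.w fun p => (n.1 p : ℂ)).Closed := by
  have h := H.closed_smul tp⁻¹ _ (H.curv_smooth (D.L n)) (H.curv_closed (D.L n))
  rwa [curv_L, smul_smul, inv_mul_cancel₀ tp_ne, one_smul] at h

theorem isec_L (H : FormFacts Y) (n m : intKer (dlt2 D.U)) :
    isec (D.L n).L (D.L m).L = pair (D.w fun p => (n.1 p : ℂ)) (D.w fun p => (m.1 p : ℂ)) := by
  rw [isec_eq, curv_L, curv_L, H.pair_smul _ _ _ (D.w_smooth H n)
    (H.smooth_smul _ _ (D.w_smooth H m)), BlockC.pair_comm, H.pair_smul _ _ _ (D.w_smooth H m)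
    (D.w_smooth H n), BlockC.pair_comm, ← mul_assoc, ← mul_assoc]
  have h1 : -(1 / (4 * (Real.pi : ℂ) ^ 2)) * tp * tp = 1 := by
    have hpi : (Real.pi : ℂ) ≠ 0 := by exact_mod_cast Real.pi_ne_zero
    unfold tp
    field_simp
    rw [Complex.I_sq]
    ring
  rw [h1, one_mul]

/-- cohomologous forms have the same pairing -/
theorem pair_congr (H : FormFacts Y) {F F' G G' : TwoF Y} (hF : ExactTwo (F' - F))
    (hG : ExactTwo (G' - G)) (h1 : F.Smooth) (h2 : F.Closed) (h3 : G.Smooth)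
    (h5 : G'.Closed) : pair F' G' = pair F G := by
  obtain ⟨A, hA, hA'⟩ := hF
  obtain ⟨B, hB, hB'⟩ := hG
  have e1 : F' = A.d + F := by rw [hA']; abel
  have e2 : G' = B.d + G := by rw [hB']; abel
  have h6 : G'.Smooth := by rw [e2]; exact H.smooth_add _ _ (H.smooth_d B hB) h3
  rw [e1, H.pair_add _ _ _ (H.smooth_d A hA) h1 h6, H.pair_d A _ hA h6 h5, zero_add, e2,
    BlockC.pair_comm, H.pair_add _ _ _ (H.smooth_d B hB) h3 h1, H.pair_d B _ hB h1 h2, zero_add,
    BlockC.pair_comm]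

/-! ### comparison with a fine partition -/

/-- a partition in `AX Y` as a partition in the sense of `H995`, subordinate to sets `V` -/
def toPart {κ : Type*} [Fintype κ] (Q : H533.Part (AX Y) κ) (V : κ → Set Y)
    (hV : ∀ a, IsOpen (V a)) (h : ∀ a, tsupport (Q.ψ a : Y → ℝ) ⊆ V a) : H995.Part Y κ where
  U := V
  isOpen := hV
  ρ a := (Q.ψ a : Y → ℝ)
  smooth a := H533.AX_reg (Q.ψ a)
  supp := h
  sum x := by
    have h2 := congrArg (fun f : AX Y => (f : Y → ℝ) x) Q.sum_one
    have h3 : ((∑ a, Q.ψ a : AX Y) : Y → ℝ) x = ∑ a, (Q.ψ a : Y → ℝ) x := by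
      rw [AddSubmonoidClass.coe_finsetSum, Finset.sum_apply]
    simp only [h3] at h2
    exact h2.trans (by simp)

theorem fine_sub {N : ℕ → ℕ} {P : ∀ k, H533.Part (AX Y) (Fin (N k))}
    (hP : ∀ η > 0, ∀ᶠ k in atTop, (P k).Fine η) :
    ∀ᶠ k in atTop, ∀ a, tsupport ((P k).ψ a : Y → ℝ) ⊆ (D.U (D.c ((P k).v a)) : Set Y) := by
  obtain ⟨ε, hε, h⟩ := eventually_sm_metric.1 (D.hc 2)
  filter_upwards [hP ε hε] with k hk a x hx
  have h3 := hk a x hx
  exact h ![(P k).v a, x] (by
    intro i j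
    fin_cases i <;> fin_cases j <;> simp [dist_self, hε, h3, dist_comm]) 0 1

theorem WP_eq {κ : Type*} [Fintype κ] (Q : H533.Part (AX Y) κ) (V : κ → Set Y)
    (hV : ∀ a, IsOpen (V a)) (h : ∀ a, tsupport (Q.ψ a : Y → ℝ) ⊆ V a) (n : N2 D.U → ℤ) :
    WP Q (fnHom D.U D.c n) = (toPart Q V hV h).W fun a b d =>
      (fun i j k => ((extA D.U n i j k : ℤ) : ℂ)) (D.c (Q.v a)) (D.c (Q.v b)) (D.c (Q.v d)) := by
  rw [W_eq_WF]
  have h1 : (toPart Q V hV h).ψ = ψC Q := rfl
  rw [h1, WP]
  rfl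

/-- the complex values of an integral cocycle -/
def cc (n : intKer (dlt2 D.U)) (i j k : ι) : ℂ := ((extA D.U n.1 i j k : ℤ) : ℂ)

theorem isCoc_cc (n : intKer (dlt2 D.U)) : IsCoc D.S.toPart.U (D.cc n) := by
  intro a b c d x ha hb hc hd
  have h1 := D.isCoc n a b c d x ha hb hc hd
  unfold cc
  exact_mod_cast h1

theorem toPart_sub (i : ι) : (D.U i : Set Y) ⊆ D.S.toPart.U i := by
  have h2 : D.S.toPart.U = fun i => (D.U i : Set Y) := D.hU'
  rw [h2]

/-- the form of a fine partition is cohomologous to the form of the good cover -/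
theorem exact_WP {κ : Type*} [Fintype κ] (Q : H533.Part (AX Y) κ)
    (h : ∀ a, tsupport (Q.ψ a : Y → ℝ) ⊆ (D.U (D.c (Q.v a)) : Set Y))
    (n : intKer (dlt2 D.U)) :
    ExactTwo (WP Q (fnHom D.U D.c n.1) - D.w fun p => (n.1 p : ℂ)) := by
  rw [D.WP_eq Q (fun a => (D.U (D.c (Q.v a)) : Set Y)) (fun a => (D.U _).isOpen) h, w_cast,
    exactTwo_iff]
  exact H995.Part.exact_sub (r := D.cc n) (toPart Q (fun a => (D.U (D.c (Q.v a)) : Set Y))
    (fun a => (D.U _).isOpen) h) D.S.toPart (fun a => D.c (Q.v a))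
    (fun a => D.toPart_sub _) (D.isCoc_cc n)

/-! ### coboundaries -/

/-- extension by zero of a 1-cochain -/
def ext1 (U : ι → Opens Y) (u : N1 U → ℤ) (i j : ι) : ℤ := by
  classical
  exact if h : U i ⊓ U j ≠ ⊥ then u ⟨(i, j), h⟩ else 0

theorem ext1_of_ne {U : ι → Opens Y} (u : N1 U → ℤ) {i j : ι} (h : U i ⊓ U j ≠ ⊥) :
    ext1 U u i j = u ⟨(i, j), h⟩ := by
  classical
  exact dif_pos h

theorem inf_ne_bot {i j k : ι} {x : Y} (hi : x ∈ D.S.toPart.U i) (hj : x ∈ D.S.toPart.U j)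
    (hk : x ∈ D.S.toPart.U k) : D.U i ⊓ D.U j ⊓ D.U k ≠ ⊥ := by
  have h2 : D.S.toPart.U = fun i => (D.U i : Set Y) := D.hU'
  rw [h2] at hi hj hk
  intro h0
  have : x ∈ D.U i ⊓ D.U j ⊓ D.U k := ⟨⟨hi, hj⟩, hk⟩
  rw [h0] at this
  exact this

/-- the forms of coboundaries are exact -/
theorem exact_dlt1 (u : N1 D.U → ℤ) :
    ExactTwo (D.w fun p => (((dlt1 D.U).app u p : ℤ) : ℂ)) := by
  rw [exactTwo_iff]
  have h1 := H995.Part.exact_W_coboundary D.S.toPart fun i j => ((ext1 D.U u i j : ℤ) : ℂ)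
  have h2 : (D.w fun p => (((dlt1 D.U).app u p : ℤ) : ℂ)) = D.S.toPart.W fun a b c =>
      ((ext1 D.U u b c : ℤ) : ℂ) - (ext1 D.U u a c : ℤ) + (ext1 D.U u a b : ℤ) := by
    rw [w_apply]
    refine H995.Part.W_congr _ fun i j k x hi hj hk => ?_
    have hne := D.inf_ne_bot hi hj hk
    rw [extA_of_ne _ hne, dlt1_app, ext1_of_ne u (ne_bot_mono (le_inf (inf_le_left.trans
      inf_le_right) inf_le_right) hne), ext1_of_ne u (ne_bot_mono (le_inf (inf_le_left.trans
      inf_le_left) inf_le_right) hne), ext1_of_ne u (ne_bot_mono inf_le_left hne)]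
    push_cast
    rfl
  rw [h2]
  exact h1

/-! ### duality -/

/-- Poincare duality -/
theorem dual (H : FormFacts Y) (φ : intKer (dlt2 D.U) →+ ℤ)
    (hφ : ∀ n, ExactTwo (D.L n).L.curv → φ n = 0) :
    ∃ m, ∀ n, isec (D.L n).L (D.L m).L = φ n := by
  classical
  obtain ⟨G, hG⟩ := exists_extend_int (dlt2 D.U) φ
  have hGs : ∀ z, G z = ∑ j, G (Pi.single j 1) * z j := by
    intro z
    conv_lhs => rw [← Finset.univ_sum_single z]
    rw [map_sum]
    refine Finset.sum_congr rfl fun j _ => ?_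
    have h1 : (Pi.single j (z j) : N2 D.U → ℤ) = z j • Pi.single j 1 := by
      rw [← Pi.single_smul]
      simp
    rw [h1, map_zsmul, smul_eq_mul, mul_comm]
  have hcyc : IsCycle (dlt1 D.U) fun j => G (Pi.single j 1) := by
    intro u
    rw [← hGs]
    have h1 : (dlt1 D.U).app u ∈ intKer (dlt2 D.U) := dlt2_dlt1 u
    rw [hG ⟨_, h1⟩]
    refine hφ ⟨_, h1⟩ ?_
    rw [curv_L]
    exact H.exact_smul _ _ (D.exact_dlt1 u)
  obtain ⟨k, hk1, hk2⟩ := ((pd_uniform (TI Y) D.P D.pd D.hc).and (D.fine_sub D.pd.fine)).exists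
  obtain ⟨m, hm⟩ := hk1 _ hcyc
  refine ⟨m, fun n => ?_⟩
  have hco := fun n => D.exact_WP (D.P k) hk2 n
  have hcl : (WP (D.P k) (fnHom D.U D.c m.1)).Closed := by
    obtain ⟨A, hA, hA'⟩ := hco m
    have e1 : WP (D.P k) (fnHom D.U D.c m.1) = A.d + D.w fun p => (m.1 p : ℂ) := by
      rw [hA']; abel
    rw [e1]
    exact BlockC.closed_add (H.smooth_d A hA) (D.w_smooth H m) (H857.closed_d hA)
      (D.w_closed H m)
  have h3 := hm n
  rw [pairW_apply] at h3
  have h4 := prodW_eq_intX (D.P k) (fnHom D.U D.c n.1) (fnHom D.U D.c m.1)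
  rw [D.isec_L H, ← pair_congr H (hco n) (hco m) (D.w_smooth H n) (D.w_closed H n)
    (D.w_smooth H m) hcl]
  have h5 : pair (WP (D.P k) (fnHom D.U D.c n.1)) (WP (D.P k) (fnHom D.U D.c m.1)) =
      ((prodW (TI Y) (D.P k) (fnHom D.U D.c n.1) (fnHom D.U D.c m.1) : ℝ) : ℂ) := h4.symm
  rw [h5, h3, ← hG n, hGs]
  push_cast
  rfl

/-- **The nerve of a good cover computes the lattice of Chern classes.** -/
def nerveIn (H : FormFacts Y) : Vale.Agent.P290.H445.NerveIn Y where
  Z := intKer (dlt2 D.U)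
  fin := by
    have : IsNoetherian ℤ (N2 D.U → ℤ) := inferInstance
    exact inferInstanceAs (Module.Finite ℤ (AddSubgroup.toIntSubmodule (intKer (dlt2 D.U))))
  L := D.L
  add m n := by
    have h1 : (D.L (m + n)).L.curv - ((D.L m).L.curv + (D.L n).L.curv) = 0 := by
      rw [curv_L, curv_L, curv_L, ← smul_add, ← map_add]
      have : (fun p => (((m + n : intKer (dlt2 D.U)).1 p : ℤ) : ℂ)) =
          (fun p => (m.1 p : ℂ)) + fun p => (n.1 p : ℂ) := by
        funext p
        rw [AddSubgroup.coe_add, Pi.add_apply, Pi.add_apply]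
        push_cast
        rfl
      rw [this, sub_self]
    rw [h1]
    exact H.exactTwo_zero
  surj M := by
    obtain ⟨Z, z, hz, hZ⟩ := D.conv M
    refine ⟨⟨rstA (U := D.U) z, ?_⟩, ?_⟩
    · refine rstA_mem fun i j k l hne => ?_
      obtain ⟨x, ⟨⟨hi, hj⟩, hk⟩, hl⟩ := hne
      exact hz i j k l x hi hj hk hl
    · rw [curv_L, w_cast]
      have h1 : (D.S.toPart.W fun a b c => ((extA D.U (rstA (U := D.U) z) a b c : ℤ) : ℂ)) =
          D.S.toPart.W fun a b c => (z a b c : ℂ) := by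
        refine H995.Part.W_congr _ fun i j k x hi hj hk => ?_
        rw [extA_of_ne _ (D.inf_ne_bot hi hj hk)]
        rfl
      rw [h1]
      have hU : D.S.toPart.U = fun i => (D.U i : Set Y) := D.hU'
      rw [exactTwo_iff]
      have h2 := (Z.comp id (V := D.S.toPart.U) (fun a => by rw [hU]; exact subset_rfl)).exact
        D.S.toPart
      have h3 : (Z.comp id (V := D.S.toPart.U) (fun a => by rw [hU]; exact subset_rfl)).r =
          fun a b c => (2 * Real.pi * Complex.I) * (z a b c : ℂ) := by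
        change (fun a b c => Z.r a b c) = _
        rw [hZ]
      rw [h3, H995.Part.W_smul] at h2
      rw [tp, neg_smul, sub_neg_eq_add]
      exact h2
  dual := D.dual H
  span F hF hF' := by
    obtain ⟨Z⟩ := D.span F hF hF'
    have hr' : (dlt2 D.U).app (rstA (U := D.U) fun a b c => -Z.r a b c) = 0 := by
      funext p
      obtain ⟨⟨i, j, k, l⟩, hne⟩ := p
      rw [dlt2_app]
      obtain ⟨x, ⟨⟨hi, hj⟩, hk⟩, hl⟩ := ne_bot_iff_nonempty.1 hne
      have := Z.isCoc i j k l x hi hj hk hl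
      simp only [rstA, Pi.zero_apply]
      linear_combination -this
    obtain ⟨k, t, n, hn⟩ := exists_int_comb hr'
    refine ⟨k, fun i => t i * tp⁻¹, n, ?_⟩
    have h1 : ∑ i, (t i * tp⁻¹) • (D.L (n i)).L.curv = -D.S.toPart.W Z.r := by
      have h2 : -D.S.toPart.W Z.r = D.w (rstA (U := D.U) fun a b c => -Z.r a b c) := by
        rw [w_apply, ← H995.Part.W_neg]
        refine H995.Part.W_congr _ fun i j k x hi hj hk => ?_
        rw [extA_of_ne _ (D.inf_ne_bot hi hj hk)]
        rfl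
      rw [h2, hn, map_sum]
      refine Finset.sum_congr rfl fun i _ => ?_
      rw [curv_L, smul_smul, mul_assoc, inv_mul_cancel₀ tp_ne, mul_one, map_smul]
    rw [h1, sub_neg_eq_add, exactTwo_iff]
    have hU : D.S.toPart.U = fun i => (D.U i : Set Y) := D.hU'
    exact (Z.comp id (V := D.S.toPart.U) (fun a => by rw [hU]; exact subset_rfl)).exact
        D.S.toPart

end NIn

end Vale.Agent.P267.H994
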