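import Vale.Agent.P267.H994.Core
import Vale.Agent.P267.H857.Betti2

/-!
# P267, package UNI-FINAL (helper994): unimodularity of closed surfaces

* `int_of_rr` : integrality of the intersection numbers from Riemann-Roch.
* `betti_of_unimod` : the rank is the second Betti number.
* `unimod_of` : `BlockC.UnimodThm'` from `NerveIn Y` for all closed surfaces.
-/

set_option linter.unusedSectionVars false

open scoped Manifold ContDiff ComplexConjugate Matrix
open Set

noncomputable section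

namespace Vale.Agent.P267.H994

open Vale.Agent.P267.FL Vale.Agent.P267.BlockC Vale.Agent.P267.RR Vale.Agent.P290.H445

variable {Y : Type} [TopologicalSpace Y] [ChartedSpace C2 Y]

/-- additivity of intersection numbers under a relation of curvatures -/
theorem isec_add (H : FormFacts Y) {M L L' : ALB Y}
    (h : ExactTwo (M.L.curv - (L.L.curv + L'.L.curv))) (T : ALB Y) :
    isec M.L T.L = isec L.L T.L + isec L'.L T.L := by
  obtain ⟨A, hA, hA'⟩ := h
  have e1 : M.L.curv = A.d + (L.L.curv + L'.L.curv) := by rw [hA']; abel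
  rw [isec_eq, isec_eq, isec_eq, e1, H.pair_add _ _ _ (H.smooth_d A hA)
    (H.smooth_add _ _ (H.curv_smooth _) (H.curv_smooth _)) (H.curv_smooth _),
    H.pair_d A _ hA (H.curv_smooth _) (H.curv_closed _), zero_add,
    H.pair_add _ _ _ (H.curv_smooth _) (H.curv_smooth _) (H.curv_smooth _)]
  ring

/-- the group law on classes -/
theorem exists_tensor (H : FormFacts Y) (D : NerveIn Y) (L L' : ALB Y) :
    ∃ M : ALB Y, ExactTwo (M.L.curv - (L.L.curv + L'.L.curv)) := by
  obtain ⟨n, hn⟩ := D.surj L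
  obtain ⟨m, hm⟩ := D.surj L'
  refine ⟨D.L (n + m), ?_⟩
  have h1 := H.exact_sub _ _ (D.add n m) hn
  have h2 := H.exact_sub _ _ h1 hm
  have e : (D.L (n + m)).L.curv - (L.L.curv + L'.L.curv) =
      (D.L (n + m)).L.curv - ((D.L n).L.curv + (D.L m).L.curv) - (L.L.curv - (D.L n).L.curv) -
        (L'.L.curv - (D.L m).L.curv) := by abel
  rw [e]
  exact h2

/-- **Integrality from Riemann-Roch.** -/
theorem int_of_rr (H : FormFacts Y) (D : NerveIn Y)
    (rr : ∀ L K : ALB Y, IsCanon K.L → ∃ k : ℤ, isec L.L L.L - isec K.L L.L = -2 * k)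
    (L L' : ALB Y) : ∃ k : ℤ, isec L.L L'.L = k := by
  obtain ⟨K, hK⟩ := H.exists_canon
  obtain ⟨M, hM⟩ := exists_tensor H D L L'
  obtain ⟨a, ha⟩ := rr M K hK
  obtain ⟨b, hb⟩ := rr L K hK
  obtain ⟨c, hc⟩ := rr L' K hK
  have h1 : isec M.L M.L = isec L.L L.L + 2 * isec L.L L'.L + isec L'.L L'.L := by
    rw [isec_add H hM, isec_comm L.L M.L, isec_comm L'.L M.L, isec_add H hM, isec_add H hM,
      isec_comm L'.L L.L]
    ring
  have h2 : isec K.L M.L = isec K.L L.L + isec K.L L'.L := by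
    rw [isec_comm, isec_add H hM, isec_comm L.L, isec_comm L'.L]
  refine ⟨-(a - b - c), ?_⟩
  push_cast
  linear_combination (1 / 2 : ℂ) * ha - (1 / 2 : ℂ) * hb - (1 / 2 : ℂ) * hc -
    (1 / 2 : ℂ) * h1 + (1 / 2 : ℂ) * h2

/-- **The rank of the lattice is the second Betti number.** -/
theorem betti_of_unimod [IsManifold 𝓘(ℂ, C2) ω Y] (H : FormFacts Y) {r : ℕ} (h : Unimod Y r) :
    BettiSucc Y 1 r := by
  obtain ⟨E, G, -, -, h, -, -⟩ := h
  rw [H857.bettiSucc_one_iff]
  refine ⟨fun i => (E i).L.curv, fun i => H857.mem_Z2F.2 ⟨H.curv_smooth _, H.curv_closed _⟩, ?_⟩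
  intro F hF
  obtain ⟨h1, h2⟩ := H857.mem_Z2F.1 hF
  obtain ⟨t, ht, ht'⟩ := h F h1 h2
  refine ⟨t, ?_, fun s hs => ht' s ?_⟩
  · obtain ⟨A, hA, hA'⟩ := ht
    exact H857.mem_B2F.2 ⟨A, hA, hA'.symm⟩
  · obtain ⟨A, hA, hA'⟩ := H857.mem_B2F.1 hs
    exact ⟨A, hA, hA'.symm⟩

/-- unimodularity from the nerve of a good cover -/
theorem unimod_of_int [IsManifold 𝓘(ℂ, C2) ω Y] (H : FormFacts Y) (D : NerveIn Y) {N : ℕ}
    (b2 : BettiSucc Y 1 N) (int : ∀ L L' : ALB Y, ∃ k : ℤ, isec L.L L'.L = k) : Unimod Y N := by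
  obtain ⟨r, hr⟩ := D.unimod H int
  have h1 := betti_of_unimod H hr
  rw [H857.bettiSucc_one_iff] at h1 b2
  rwa [H857.isBetti_unique b2 h1]

/-- **Unimodularity.** -/
theorem unimod_of_surfIn [IsManifold 𝓘(ℂ, C2) ω Y] (H : FormFacts Y) (D : NerveIn Y) {N : ℕ}
    (hS : SurfIn Y N) : Unimod Y N :=
  unimod_of_int H D hS.b2 (int_of_rr H D fun L K hK => by
    obtain ⟨k, hk⟩ := hS.rr L K hK
    exact ⟨k, by rw [hk]; push_cast; ring⟩)

/-- the topological input for all closed surfaces -/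
def NerveThm : Prop :=
  ∀ (Y : Type) [TopologicalSpace Y] [T2Space Y] [CompactSpace Y] [ConnectedSpace Y]
    [ChartedSpace C2 Y] [IsManifold 𝓘(ℂ, C2) ω Y], Nonempty (NerveIn Y)

/-- `BlockC.UnimodThm'` -/
theorem unimodThm_of (hC : CurvThm) (hN : NerveThm) : UnimodThm' := by
  intro Y _ _ _ _ _ _ N hS
  obtain ⟨D⟩ := hN Y
  exact unimod_of_surfIn (formFacts (hC Y)) D hS

end Vale.Agent.P267.H994
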