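import Vale.Agent.P267.H533.InstWedge
import Vale.Agent.P267.H995.WForm

/-!
# P267, package UNI-FINAL (helper994): the forms `W(r)` of helper533 and helper995

* `W_eq_WF` : `S.W r` (of a `H995.Part`) is `H533.WF S.ψ r`.
-/

set_option linter.unusedSectionVars false

open scoped Manifold ContDiff ComplexConjugate Matrix
open Set Filter Topology

noncomputable section

namespace Vale.Agent.P267.H994

open Vale.Agent.P267.FL Vale.Agent.P267.H533

variable {X : Type*} [TopologicalSpace X] [ChartedSpace C2 X] {ι : Type*} [Fintype ι]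

theorem W_eq_WF (S : H995.Part X ι) (r : ι → ι → ι → ℂ) : S.W r = WF S.ψ r := by
  refine TwoF.ext ?_ ?_ ?_
  · funext x
    change S.Wp r x (H995.tz 0) (H995.tz 1) = _
    simp only [H995.Part.Wp, H995.Part.wd, WF, wdF, H995.del0_eq, mul_assoc]
  · funext x
    ext i j
    change S.Wp r x (H995.tz i) (H995.tb j) = _
    simp only [H995.Part.Wp, H995.Part.wd, WF, wdF, H995.del0_eq, H995.dbar0_eq, mul_assoc,
      Matrix.of_apply]
  · funext x
    change S.Wp r x (H995.tb 0) (H995.tb 1) = _
    simp only [H995.Part.Wp, H995.Part.wd, WF, wdF, H995.dbar0_eq, mul_assoc]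

end Vale.Agent.P267.H994
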